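import Vale.Agent.P088.R2.H281.EP.Prs
import Vale.Agent.P088.R2.H942.Near4

/-!
# P088, stage 3, zone A: the numbers of the profile

`lS e₁ r = log S(r²)`, `prL e₁ = (lS e₁)'`, `L1 e₁ = (prL e₁)'`, `prE e₁ = -r L' / L`.
-/

open Set Filter Topology
open scoped ContDiff

noncomputable section

namespace Vale.Agent.P088.R2.H673.Pn

open Vale.Agent.P088.R2 Vale.Agent.P088.R2.H31.EP Vale.Agent.P088.R2.H281.EP
open Vale.Agent.P088.R2.H644 (Lz ez)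
open Vale.Agent.P088.R2.H942.Iso.Near (gp kp Lp)

/-- `log S` as a function of `r`. -/
def lS (e₁ r : ℝ) : ℝ := Real.log (prS e₁ (r ^ 2))

/-- The derivative of `L`. -/
def L1 (e₁ r : ℝ) : ℝ := -(prE e₁ r) * prL e₁ r / r

variable {e₁ r : ℝ}

theorem prS_pos (he : 0 < e₁) {s : ℝ} (hs : 0 < s) : 0 < prS e₁ s := (pp_ok he).S_pos hs

theorem prL_pos (he : 0 < e₁) : 0 < prL e₁ r := (pp_ok he).Lf_pos r

/-- `(log S)' = L`. -/
theorem lS_deriv (he : 0 < e₁) (hr : 0 < r) : HasDerivAt (lS e₁) (prL e₁ r) r := by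
  have h0 : 0 < prS e₁ (r ^ 2) := prS_pos he (by positivity)
  have h1 : HasDerivAt (fun r => prS e₁ (r ^ 2)) (prL e₁ r * prS e₁ (r ^ 2)) r :=
    (pp_ok he).hasDerivAt_S hr
  exact (h1.log h0.ne').congr_deriv (mul_div_cancel_right₀ _ h0.ne')

theorem prL_deriv (he : 0 < e₁) (hr : 0 < r) : HasDerivAt (prL e₁) (L1 e₁ r) r :=
  (pp_ok he).hasDerivAt_Lf hr

theorem prL_sm (he : 0 < e₁) : ContDiffOn ℝ ∞ (prL e₁) (Ioi 0) := (pp_ok he).contDiffOn_Lf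

theorem prE_sm (he : 0 < e₁) : ContDiffOn ℝ ∞ (prE e₁) (Ioi 0) := (pp_ok he).contDiffOn_ef

theorem L1_sm (he : 0 < e₁) : ContDiffOn ℝ ∞ (L1 e₁) (Ioi 0) :=
  ((prE_sm he).neg.mul (prL_sm he)).div contDiffOn_id fun _ hr => ne_of_gt hr

theorem lS_sm (he : 0 < e₁) : ContDiffOn ℝ ∞ (lS e₁) (Ioi 0) :=
  ContDiffOn.log (((pp_ok he).contDiff_Ph.comp (contDiff_id.pow 2)).contDiffOn)
    fun _ hr => (prS_pos he (pow_pos hr 2)).ne'

/-! ### Comparison with the pure profile -/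

/-- `2 coth r` in the two notations. -/
theorem Lz_eq {θ : ℝ} (hθ : 0 < θ) (hr : 0 < r) : Lz θ r = 2 * Lp θ r := by
  have h1 := H644.Lz_mul hθ hr
  have h2 : 0 < Real.cosh (θ * r) - 1 := by
    have := Real.one_lt_cosh.2 (mul_pos hθ hr).ne'
    linarith
  have h3 : Lz θ r = θ * Real.sinh (θ * r) / (Real.cosh (θ * r) - 1) := by
    rw [eq_div_iff h2.ne', h1]
  have hr' := hr.ne'
  have hθ' := hθ.ne'
  have h2' := h2.ne'
  rw [h3]
  unfold Lp kp gp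
  field_simp

/-- `L ≤ 2 coth r`. -/
theorem prL_le (he : 0 < e₁) (hr : 0 < r) : prL e₁ r ≤ 2 * Lp 2 r := by
  rw [← Lz_eq two_pos hr]
  exact (pp_ok he).Lf_le hr

theorem prL_ge (he : 0 < e₁) : 4 / 5 ≤ prL e₁ r := (pp_ok he).Li_le r

/-- The pure profile up to `r = 20`. -/
theorem prL_eq (he : 0 < e₁) (hr : 0 < r) (h : r ≤ 20) : prL e₁ r = 2 * Lp 2 r := by
  rw [← Lz_eq two_pos hr]
  exact (pp_ok he).Lf_eq hr (by unfold rp; exact h)

theorem prE_eq (he : 0 < e₁) (hr : 0 < r) (h : r ≤ 20) : prE e₁ r = ez 2 r :=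
  (pp_ok he).ef_eq hr (by unfold rp; exact h)

/-- `e L / r = 1 / g` for the pure profile. -/
theorem ez_Lz (hr : 0 < r) : ez 2 r * Lz 2 r / r = 1 / gp 2 r := by
  have h1 := H644.Lz_mul (θ := 2) two_pos hr
  have h2 : 0 < Real.cosh (2 * r) - 1 := by
    have := Real.one_lt_cosh.2 (mul_pos two_pos hr).ne'
    linarith
  have h3 : Lz 2 r = 2 * Real.sinh (2 * r) / (Real.cosh (2 * r) - 1) := by
    rw [eq_div_iff h2.ne', h1]
  have hs : 0 < Real.sinh (2 * r) := Real.sinh_pos_iff.2 (by positivity)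
  have hs' := hs.ne'
  have hr' := hr.ne'
  have h2' := h2.ne'
  rw [h3]
  unfold ez gp
  field_simp

theorem L1_eq (he : 0 < e₁) (hr : 0 < r) (h : r ≤ 20) : L1 e₁ r = -(1 / gp 2 r) := by
  have h1 := ez_Lz hr
  unfold L1
  rw [prE_eq he hr h, prL_eq he hr h, ← Lz_eq two_pos hr, ← h1]
  ring

theorem gp_ge (hr : 0 < r) : r ^ 2 / 2 ≤ gp 2 r := by
  have h1 : Real.cosh (2 * r) - 1 = 2 * Real.sinh r ^ 2 := by
    rw [Real.cosh_two_mul, Real.cosh_sq r]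
    ring
  have h2 : r ≤ Real.sinh r := Real.self_le_sinh_iff.2 hr.le
  unfold gp
  rw [h1]
  nlinarith

/-- `coth r ≤ 1 + 1 / r`. -/
theorem Lz_le (hr : 0 < r) : Lz 2 r ≤ 2 + 2 / r := by
  have h1 : 0 < Real.sinh r := Real.sinh_pos_iff.2 hr
  have h2 : Real.cosh r - Real.sinh r = Real.exp (-r) := Real.cosh_sub_sinh r
  have h3 : Real.exp (-r) ≤ 1 := Real.exp_le_one_iff.2 (by linarith)
  have h4 : r ≤ Real.sinh r := Real.self_le_sinh_iff.2 hr.le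
  have e : 2 * r / 2 = r := by ring
  have h5 : Real.sinh r / r ≥ 1 := (one_le_div₀ hr).2 h4
  unfold Lz
  rw [e, div_le_iff₀ h1]
  have h6 : (2 + 2 / r) * Real.sinh r = 2 * Real.sinh r + 2 * (Real.sinh r / r) := by ring
  rw [h6]
  linarith

/-- `0 ≤ -L'`. -/
theorem L1_nonpos (he : 0 < e₁) (hr : 0 < r) : L1 e₁ r ≤ 0 := by
  have h1 := (pp_ok he).ef_nonneg hr
  have h2 := prL_pos (r := r) he
  unfold L1
  exact div_nonpos_of_nonpos_of_nonneg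
    (mul_nonpos_of_nonpos_of_nonneg (neg_nonpos.2 h1) h2.le) hr.le

/-- `r |L'| ≤ (e₀ + e₁) L`. -/
theorem L1_abs (he : 0 < e₁) (hr : 0 < r) : |L1 e₁ r| * r ≤ (ez 2 r + e₁) * prL e₁ r := by
  have h1 : prE e₁ r ≤ ez 2 r + e₁ := (pp_ok he).ef_le hr
  have h2 := prL_pos (r := r) he
  have h3 : |L1 e₁ r| * r = prE e₁ r * prL e₁ r := by
    rw [abs_of_nonpos (L1_nonpos he hr)]
    unfold L1
    field_simp
  rw [h3]
  exact mul_le_mul_of_nonneg_right h1 h2.le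

/-! ### Near: `c₀ ≤ r ≤ 20` -/

/-- **The numbers between the diagonal and the far zone.** -/
theorem near (he : 0 < e₁) {c₀ : ℝ} (hc : 0 < c₀) (h0 : c₀ ≤ r) (h1 : r ≤ 20) :
    0 ≤ prL e₁ r ∧ prL e₁ r ≤ 2 + 2 / c₀ ∧ |L1 e₁ r| ≤ 2 / c₀ ^ 2 ∧
    prL e₁ r = 2 * Lp 2 r ∧ -L1 e₁ r = 1 / gp 2 r := by
  have hr : 0 < r := hc.trans_le h0
  have e1 := prL_eq he hr h1
  have e2 := L1_eq he hr h1
  refine ⟨(prL_pos he).le, ?_, ?_, e1, by rw [e2]; ring⟩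
  · rw [e1, ← Lz_eq two_pos hr]
    refine (Lz_le hr).trans ?_
    have : 2 / r ≤ 2 / c₀ := div_le_div_of_nonneg_left zero_le_two hc h0
    linarith
  · have h2 := gp_ge hr
    have h3 : 0 < gp 2 r := lt_of_lt_of_le (by positivity) h2
    rw [e2, abs_neg, abs_of_pos (by positivity)]
    rw [div_le_div_iff₀ h3 (by positivity)]
    have h4 : c₀ ^ 2 ≤ r ^ 2 := pow_le_pow_left₀ hc.le h0 2
    linarith

/-- The hypotheses of `cert_near_wt` for any `ε₀ ≥ 0`. -/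
theorem near_wt (he : 0 < e₁) {c₀ : ℝ} (hc : 0 < c₀) (h0 : c₀ ≤ r) (h1 : r ≤ 20) {ε₀ CL : ℝ}
    (h : 0 ≤ ε₀) (hCL : 2 + 2 / c₀ + 2 / c₀ ^ 2 ≤ CL) :
    0 ≤ prL e₁ r ∧ prL e₁ r ≤ CL ∧ |L1 e₁ r| ≤ CL ∧ prL e₁ r ≤ 2 * Lp 2 r * (1 + ε₀) ∧
    |prL e₁ r - 2 * Lp 2 r| ≤ ε₀ ∧ -L1 e₁ r ≤ 1 / gp 2 r + ε₀ := by
  obtain ⟨a1, a2, a3, a4, a5⟩ := near he hc h0 h1
  have b1 : 0 < 2 / c₀ := by positivity
  have b2 : 0 < 2 / c₀ ^ 2 := by positivity
  refine ⟨a1, by linarith, by linarith, ?_, ?_, by linarith⟩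
  · rw [← a4]
    have := mul_nonneg a1 h
    linarith
  · rw [a4, sub_self, abs_zero]
    exact h

/-! ### Far: `15 ≤ r` -/

theorem exp_ge (h : 30 ≤ r) : 200000000000 * r ≤ Real.exp r := by
  have h1 : (2.7 : ℝ) ^ 30 ≤ Real.exp 1 ^ 30 :=
    pow_le_pow_left₀ (by norm_num) (by linarith [Real.exp_one_gt_d9]) 30
  have h2 : Real.exp 1 ^ 30 = Real.exp 30 := by rw [← Real.exp_nat_mul]; norm_num
  have h3 : (6000000000000 : ℝ) ≤ Real.exp 30 := by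
    rw [← h2]
    refine le_trans ?_ h1
    norm_num
  have h4 : Real.exp r = Real.exp 30 * Real.exp (r - 30) := by
    rw [← Real.exp_add]
    ring_nf
  have h5 := Real.add_one_le_exp (r - 30)
  have h6 : r / 30 ≤ Real.exp (r - 30) := by linarith
  rw [h4]
  have h7 := mul_le_mul h3 h6 (by positivity) (Real.exp_pos _).le
  linarith

theorem sinh_ge (h : 30 ≤ r) : 50000000000 * r ≤ Real.sinh r := by
  have h1 := exp_ge h
  have h2 : Real.exp (-r) ≤ 1 := Real.exp_le_one_iff.2 (by linarith)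
  rw [Real.sinh_eq]
  linarith

/-- `e₀ ≤ 2 · 10⁻¹¹` for `r ≥ 15`. -/
theorem ez_far (h : 15 ≤ r) : ez 2 r ≤ 1 / 50000000000 := by
  have h1 := sinh_ge (r := 2 * r) (by linarith)
  have h2 : 0 < Real.sinh (2 * r) := Real.sinh_pos_iff.2 (by linarith)
  unfold ez
  rw [div_le_iff₀ h2]
  linarith

theorem Lz_far (h : 15 ≤ r) : Lz 2 r ≤ 2 + 1 / 1000000 := by
  have h0 : 0 < Real.sinh r := Real.sinh_pos_iff.2 (by linarith)
  have h2 : Real.cosh r - Real.sinh r = Real.exp (-r) := Real.cosh_sub_sinh r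
  have e : 2 * r / 2 = r := by ring
  have h3 := exp_ge (r := 2 * r) (by linarith)
  have h4 : Real.exp (2 * r) = Real.exp r * Real.exp r := by
    rw [← Real.exp_add]
    ring_nf
  have h5 : Real.exp (-r) * Real.exp r = 1 := by
    rw [← Real.exp_add]
    simp
  have hp : 0 < Real.exp (-r) := Real.exp_pos _
  have h6 : 2 * Real.sinh r = Real.exp r - Real.exp (-r) := by rw [Real.sinh_eq]; ring
  unfold Lz
  rw [e, div_le_iff₀ h0]
  have h7 : Real.exp (-r) * 6000000000000 ≤ Real.exp r := by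
    have h8 : Real.exp (-r) * Real.exp (2 * r) = Real.exp r := by
      rw [h4, ← mul_assoc, h5, one_mul]
    rw [← h8]
    exact mul_le_mul_of_nonneg_left (by linarith) hp.le
  linarith

/-- **The numbers of the far zone.** -/
theorem far (he : 0 < e₁) (he1 : e₁ ≤ 1 / 1000000000) (h : 15 ≤ r) :
    4 / 5 ≤ prL e₁ r ∧ prL e₁ r ≤ 2 + 1 / 1000000 ∧ 60000000 * (|L1 e₁ r| * r) ≤ 1 := by
  have hr : 0 < r := by linarith
  have h1 : prL e₁ r ≤ 2 + 1 / 1000000 := ((pp_ok he).Lf_le hr).trans (Lz_far h)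
  refine ⟨prL_ge he, h1, ?_⟩
  have h2 := L1_abs he hr
  have h3 := ez_far h
  have h4 : (ez 2 r + e₁) * prL e₁ r ≤ (1 / 50000000000 + 1 / 1000000000) * (2 + 1 / 1000000) :=
    mul_le_mul (by linarith) h1 (prL_pos he).le (by norm_num)
  norm_num at h4 ⊢
  linarith

/-- All `r ≥ c₀`: `|L| ≤ 2 + 2 / c₀` and `r |L'| ≤ (1 + e₁) (2 + 2 / c₀)`. -/
theorem all (he : 0 < e₁) {c₀ : ℝ} (hc : 0 < c₀) (h0 : c₀ ≤ r) :
    prL e₁ r ≤ 2 + 2 / c₀ ∧ |L1 e₁ r| * r ≤ (1 + e₁) * (2 + 2 / c₀) := by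
  have hr : 0 < r := hc.trans_le h0
  have h1 : prL e₁ r ≤ 2 + 2 / c₀ := by
    refine (((pp_ok he).Lf_le hr).trans (Lz_le hr)).trans ?_
    have : 2 / r ≤ 2 / c₀ := div_le_div_of_nonneg_left zero_le_two hc h0
    linarith
  refine ⟨h1, (L1_abs he hr).trans ?_⟩
  exact mul_le_mul (by linarith [H644.ez_lt_one (θ := 2) two_pos hr]) h1 (prL_pos he).le
    (by linarith)

end Vale.Agent.P088.R2.H673.Pn
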